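/-
S0170 team project, work package A3 (helper57): finite-difference approximation of mixed
derivatives.  ANALYSIS part: the explicit evaluator `fdEval` and its error bound.
No computability in this file.
-/
import Mathlib
import Crest.Prelude.Def_BoxFlow

set_option autoImplicit false
open scoped ContDiff
open Crest.AnalysisR.BoxFlow

namespace Crest.Agent.Helper57

noncomputable section

/-- Mixed derivatives of a smooth field are smooth. -/
theorem contDiff_mixedDeriv (F : Field) (hF : ContDiff ℝ ∞ F) :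
    ∀ ds : List (Fin 4), ContDiff ℝ ∞ (mixedDeriv ds F)
  | [] => hF
  | d :: ds => by
      have h := contDiff_mixedDeriv F hF ds
      show ContDiff ℝ ∞ (fun p => fderiv ℝ (mixedDeriv ds F) p (direction d))
      exact (h.fderiv_right (m := ∞) (by simp)).clm_apply contDiff_const

theorem mixedDeriv_cons (d : Fin 4) (ds : List (Fin 4)) (F : Field) :
    mixedDeriv (d :: ds) F = fun p => fderiv ℝ (mixedDeriv ds F) p (direction d) := rfl

/-- Derivative of a component of a differentiable field along a line. -/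
theorem hasDerivAt_line (H : Field) (hH : Differentiable ℝ H) (p v : ℝ × (Fin 3 → ℝ)) (j : Fin 3)
    (s : ℝ) : HasDerivAt (fun s : ℝ => H (p + s • v) j) (fderiv ℝ H (p + s • v) v j) s := by
  have hline : HasDerivAt (fun s : ℝ => p + s • v) v s := by
    have : HasDerivAt (fun s : ℝ => s • v) ((1 : ℝ) • v) s := (hasDerivAt_id s).smul_const v
    simpa using this.const_add p
  have h1 : HasDerivAt (H ∘ fun s : ℝ => p + s • v) (fderiv ℝ H (p + s • v) v) s :=
    (hH (p + s • v)).hasFDerivAt.comp_hasDerivAt s hline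
  exact (hasDerivAt_pi.1 h1) j

/-- One-step finite-difference estimate along a fixed direction `v` (mean value theorem twice). -/
theorem fd_step (G : Field) (hG : ContDiff ℝ ∞ G) (v : ℝ × (Fin 3 → ℝ)) (j : Fin 3) (B : ℝ)
    (hB : ∀ p, |fderiv ℝ (fun p => fderiv ℝ G p v) p v j| ≤ B)
    (p : ℝ × (Fin 3 → ℝ)) (h : ℝ) (hh : 0 < h) :
    |fderiv ℝ G p v j - (G (p + h • v) j - G p j) / h| ≤ h * B := by
  -- the first derivative field
  set G1 : Field := fun p => fderiv ℝ G p v with hG1
  have hG1s : ContDiff ℝ ∞ G1 :=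
    (hG.fderiv_right (m := ∞) (by simp)).clm_apply contDiff_const
  have hGd : Differentiable ℝ G := hG.differentiable (by simp)
  have hG1d : Differentiable ℝ G1 := hG1s.differentiable (by simp)
  set φ : ℝ → ℝ := fun s => G (p + s • v) j with hφ
  set ψ : ℝ → ℝ := fun s => G1 (p + s • v) j with hψ
  have hφ' : ∀ s, HasDerivAt φ (ψ s) s := fun s => hasDerivAt_line G hGd p v j s
  have hψ' : ∀ s, HasDerivAt ψ (fderiv ℝ G1 (p + s • v) v j) s :=
    fun s => hasDerivAt_line G1 hG1d p v j s
  -- mean value theorem for φ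
  obtain ⟨ξ, hξ, hξe⟩ := exists_hasDerivAt_eq_slope φ ψ hh
    (fun x _ => (hφ' x).continuousAt.continuousWithinAt) (fun x _ => hφ' x)
  -- Lipschitz bound for ψ
  have hψb : ∀ x ∈ Set.Icc (0 : ℝ) h, ‖ψ x - ψ 0‖ ≤ B * (x - 0) :=
    norm_image_sub_le_of_norm_deriv_le_segment' (fun x _ => (hψ' x).hasDerivWithinAt)
      (fun x _ => by simpa [Real.norm_eq_abs] using hB (p + x • v))
  have h0 : φ 0 = G p j := by simp [hφ]
  have hψ0 : ψ 0 = fderiv ℝ G p v j := by simp [hψ, hG1]
  have hB0 : 0 ≤ B := le_trans (abs_nonneg _) (hB p)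
  have e1 : (G (p + h • v) j - G p j) / h = ψ ξ := by
    rw [hξe, h0]; simp [hφ]
  rw [e1, ← hψ0, abs_sub_comm]
  have := hψb ξ ⟨hξ.1.le, hξ.2.le⟩
  rw [Real.norm_eq_abs, sub_zero] at this
  calc |ψ ξ - ψ 0| ≤ B * ξ := this
    _ ≤ B * h := mul_le_mul_of_nonneg_left hξ.2.le hB0
    _ = h * B := mul_comm _ _

/-- Shift a rational space-time point by `h` in the direction with index `d`. -/
def shiftPt (d : Fin 4) (h : ℚ) (p : ℚ × (Fin 3 → ℚ)) : ℚ × (Fin 3 → ℚ) :=
  (if d = 0 then p.1 + h else p.1, fun j => if j.succ = d then p.2 j + h else p.2 j)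

theorem shiftPt_spec (d : Fin 4) (h : ℚ) (p : ℚ × (Fin 3 → ℚ)) :
    ((((shiftPt d h p).1 : ℚ) : ℝ), ratPoint (shiftPt d h p).2) =
      (((p.1 : ℚ) : ℝ), ratPoint p.2) + (h : ℝ) • direction d := by
  by_cases hd : d = 0
  · subst hd
    have h1 : ∀ j : Fin 3, j.succ ≠ (0 : Fin 4) := fun j => Fin.succ_ne_zero j
    ext
    · simp [shiftPt, direction]
    · rename_i j
      simp [shiftPt, direction, ratPoint, h1]
  · ext
    · simp [shiftPt, direction, hd]
    · rename_i j
      by_cases hj : j.succ = d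
      · subst hj
        simp [shiftPt, direction, ratPoint, hd]
      · have : j ≠ d.pred hd := by
          intro h'; apply hj; rw [h']; simp
        simp [shiftPt, direction, ratPoint, hd, hj, this]

/-- Number of subdivisions: the step is `1 / fdN`. -/
def fdN (bound : List (Fin 4) → ℕ) (d : Fin 4) (ds : List (Fin 4)) (n : ℕ) : ℕ :=
  2 * (n + 1) * (bound (d :: d :: ds) + 1)

/-- Precision requested from the inner approximations. -/
def fdPrec (bound : List (Fin 4) → ℕ) (d : Fin 4) (ds : List (Fin 4)) (n : ℕ) : ℕ :=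
  4 * (n + 1) * fdN bound d ds n

/-- The finite-difference evaluator (recursive form). -/
def fdEval (E₀ : (ℚ × (Fin 3 → ℚ)) × ℕ → (Fin 3 → ℚ)) (bound : List (Fin 4) → ℕ) :
    List (Fin 4) → (ℚ × (Fin 3 → ℚ)) → ℕ → (Fin 3 → ℚ)
  | [], p, n => E₀ (p, n)
  | d :: ds, p, n => fun j =>
      (fdEval E₀ bound ds (shiftPt d (1 / (fdN bound d ds n : ℚ)) p) (fdPrec bound d ds n) j
        - fdEval E₀ bound ds p (fdPrec bound d ds n) j) * (fdN bound d ds n : ℚ)

theorem fdEval_spec (F : Field) (hF : ContDiff ℝ ∞ F)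
    (E₀ : (ℚ × (Fin 3 → ℚ)) × ℕ → (Fin 3 → ℚ))
    (hval : ∀ (t : ℚ) (q : Fin 3 → ℚ) (n : ℕ) (j : Fin 3),
      |F ((t : ℝ), ratPoint q) j - (E₀ ((t, q), n) j : ℝ)| ≤ 1 / ((n : ℝ) + 1))
    (bound : List (Fin 4) → ℕ)
    (hbound : ∀ (ds : List (Fin 4)) (p : ℝ × (Fin 3 → ℝ)) (j : Fin 3),
      |mixedDeriv ds F p j| ≤ (bound ds : ℝ)) :
    ∀ (ds : List (Fin 4)) (p : ℚ × (Fin 3 → ℚ)) (n : ℕ) (j : Fin 3),
      |mixedDeriv ds F ((p.1 : ℝ), ratPoint p.2) j - (fdEval E₀ bound ds p n j : ℝ)|
        ≤ 1 / ((n : ℝ) + 1) := by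
  intro ds
  induction ds with
  | nil =>
      intro p n j
      exact hval p.1 p.2 n j
  | cons d ds ih =>
      intro p n j
      set N : ℕ := fdN bound d ds n with hN
      set n' : ℕ := fdPrec bound d ds n with hn'
      set Bn : ℕ := bound (d :: d :: ds) with hBn
      have hNpos : (0 : ℝ) < (N : ℝ) := by
        have : 0 < N := by rw [hN, fdN]; positivity
        exact_mod_cast this
      have hn1 : (0 : ℝ) < (n : ℝ) + 1 := by positivity
      set P : ℝ × (Fin 3 → ℝ) := ((p.1 : ℝ), ratPoint p.2) with hP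
      set h : ℝ := 1 / (N : ℝ) with hh
      have hhpos : 0 < h := by rw [hh]; positivity
      set G : Field := mixedDeriv ds F with hG
      have hGs : ContDiff ℝ ∞ G := contDiff_mixedDeriv F hF ds
      -- analytic step
      have step := fd_step G hGs (direction d) j (Bn : ℝ)
        (fun q => by simpa [hG, mixedDeriv_cons] using hbound (d :: d :: ds) q j) P h hhpos
      -- the two inner approximations
      have hshift : (((shiftPt d (1 / (N : ℚ)) p).1 : ℝ), ratPoint (shiftPt d (1 / (N : ℚ)) p).2)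
          = P + h • direction d := by
        rw [shiftPt_spec]; simp [hP, hh]
      have a1 := ih (shiftPt d (1 / (N : ℚ)) p) n' j
      rw [hshift] at a1
      have a2 := ih p n' j
      -- unfold the evaluator
      have hE : (fdEval E₀ bound (d :: ds) p n j : ℝ) =
          ((fdEval E₀ bound ds (shiftPt d (1 / (N : ℚ)) p) n' j : ℝ)
            - (fdEval E₀ bound ds p n' j : ℝ)) * (N : ℝ) := by
        simp [fdEval, hN, hn']
      rw [hE]
      set e1 : ℝ := (fdEval E₀ bound ds (shiftPt d (1 / (N : ℚ)) p) n' j : ℝ) with he1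
      set e2 : ℝ := (fdEval E₀ bound ds p n' j : ℝ) with he2
      have hmd : mixedDeriv (d :: ds) F P j = fderiv ℝ G P (direction d) j := rfl
      rw [hmd]
      -- bounds on the parameters
      have hNreal : (N : ℝ) = 2 * ((n : ℝ) + 1) * ((Bn : ℝ) + 1) := by
        rw [hN, fdN]; push_cast; ring
      have hn'real : (n' : ℝ) = 4 * ((n : ℝ) + 1) * (N : ℝ) := by
        rw [hn', fdPrec]; push_cast; ring
      have hBn0 : (0 : ℝ) ≤ (Bn : ℝ) := Nat.cast_nonneg _
      -- first error: h * Bn ≤ 1 / (2 (n+1))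
      have err1 : h * (Bn : ℝ) ≤ 1 / (2 * ((n : ℝ) + 1)) := by
        rw [hh, hNreal, div_mul_eq_mul_div, one_mul, div_le_div_iff₀ (by positivity) (by positivity)]
        nlinarith
      -- second error
      have hn'pos : (0 : ℝ) < (n' : ℝ) + 1 := by positivity
      have hinner : 1 / ((n' : ℝ) + 1) ≤ 1 / (4 * ((n : ℝ) + 1) * (N : ℝ)) := by
        apply one_div_le_one_div_of_le (by positivity)
        rw [hn'real]; linarith
      have err2 : |(G (P + h • direction d) j - G P j) / h - (e1 - e2) * (N : ℝ)|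
          ≤ 1 / (2 * ((n : ℝ) + 1)) := by
        have e : (G (P + h • direction d) j - G P j) / h - (e1 - e2) * (N : ℝ)
            = ((G (P + h • direction d) j - e1) - (G P j - e2)) * (N : ℝ) := by
          rw [hh]; field_simp; ring
        rw [e, abs_mul, abs_of_pos hNpos]
        have t1 : |(G (P + h • direction d) j - e1) - (G P j - e2)| ≤
            2 * (1 / (4 * ((n : ℝ) + 1) * (N : ℝ))) := by
          calc |(G (P + h • direction d) j - e1) - (G P j - e2)|
              ≤ |G (P + h • direction d) j - e1| + |G P j - e2| := abs_sub _ _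
            _ ≤ 1 / ((n' : ℝ) + 1) + 1 / ((n' : ℝ) + 1) := add_le_add a1 a2
            _ ≤ 2 * (1 / (4 * ((n : ℝ) + 1) * (N : ℝ))) := by linarith
        calc |(G (P + h • direction d) j - e1) - (G P j - e2)| * (N : ℝ)
            ≤ 2 * (1 / (4 * ((n : ℝ) + 1) * (N : ℝ))) * (N : ℝ) :=
              mul_le_mul_of_nonneg_right t1 hNpos.le
          _ = 1 / (2 * ((n : ℝ) + 1)) := by field_simp; ring
      calc |fderiv ℝ G P (direction d) j - (e1 - e2) * (N : ℝ)|
          ≤ |fderiv ℝ G P (direction d) j - (G (P + h • direction d) j - G P j) / h|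
            + |(G (P + h • direction d) j - G P j) / h - (e1 - e2) * (N : ℝ)| :=
              abs_sub_le _ _ _
        _ ≤ h * (Bn : ℝ) + 1 / (2 * ((n : ℝ) + 1)) := add_le_add step err2
        _ ≤ 1 / (2 * ((n : ℝ) + 1)) + 1 / (2 * ((n : ℝ) + 1)) := by linarith
        _ = 1 / ((n : ℝ) + 1) := by field_simp; ring

end

end Crest.Agent.Helper57
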