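/-
S0170 team project, work package A3 (helper57): finite-difference approximation of mixed
derivatives.  COMPUTABILITY part: the evaluator `fdEval` of `FinDiff.lean` is computed by an
iterative procedure (`fdRun`), which is `Computable` as soon as rational addition,
multiplication, division, negation and the cast `ℕ → ℚ` are.
-/
import Crest.Agent.Helper57.BoxFlow.FinDiff

set_option autoImplicit false
open scoped ContDiff
open Crest.AnalysisR.BoxFlow

namespace Crest.Agent.Helper57

/-! ### Generic `Computable` combinators (Mathlib only has the `Primrec` versions) -/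

section combinators

variable {α β γ σ : Type*} [Primcodable α] [Primcodable β] [Primcodable γ] [Primcodable σ]

theorem computable_list_foldl {f : α → List β} {g : α → σ} {h : α → σ × β → σ}
    (hf : Computable f) (hg : Computable g) (hh : Computable₂ h) :
    Computable (fun a => (f a).foldl (fun s b => h a (s, b)) (g a)) := by
  have hstep : Computable₂ (fun (a : α) (p : ℕ × σ) =>
      Option.casesOn (motive := fun _ => σ) ((f a)[p.1]?) p.2 (fun b => h a (p.2, b))) := by
    have h1 : Computable (fun q : α × (ℕ × σ) => (f q.1)[q.2.1]?) :=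
      Computable.list_getElem?.comp (hf.comp Computable.fst)
        (Computable.fst.comp Computable.snd)
    have h2 : Computable (fun q : α × (ℕ × σ) => q.2.2) := Computable.snd.comp Computable.snd
    have h3 : Computable₂ (fun (q : α × (ℕ × σ)) (b : β) => h q.1 (q.2.2, b)) :=
      hh.comp (Computable.fst.comp Computable.fst)
        ((Computable.snd.comp (Computable.snd.comp Computable.fst)).pair Computable.snd)
    exact Computable.option_casesOn h1 h2 h3
  have key := Computable.nat_rec (Computable.list_length.comp hf) hg hstep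
  refine key.of_eq fun a => ?_
  have : ∀ n, Nat.rec (motive := fun _ => σ) (g a)
      (fun i IH => Option.casesOn (motive := fun _ => σ) ((f a)[i]?) IH (fun b => h a (IH, b))) n
      = ((f a).take n).foldl (fun s b => h a (s, b)) (g a) := by
    intro n
    induction n with
    | zero => simp
    | succ n ih =>
      show Option.casesOn (motive := fun _ => σ) ((f a)[n]?) _ _ = _
      rw [ih, List.take_add_one]
      cases h' : (f a)[n]? <;> simp [List.foldl_append]
  rw [this, List.take_length]

theorem computable_list_map {f : α → List β} {g : α → β → γ}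
    (hf : Computable f) (hg : Computable₂ g) : Computable (fun a => (f a).map (g a)) := by
  have hh : Computable₂ (fun (a : α) (p : List γ × β) => p.1 ++ [g a p.2]) :=
    Computable.list_concat.comp (Computable.fst.comp Computable.snd)
      (hg.comp Computable.fst (Computable.snd.comp Computable.snd))
  have key := computable_list_foldl hf (Computable.const ([] : List γ)) hh
  refine key.of_eq fun a => ?_
  have : ∀ (l : List β) (init : List γ),
      l.foldl (fun s b => s ++ [g a b]) init = init ++ l.map (g a) := by
    intro l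
    induction l with
    | nil => intro init; simp
    | cons b l ih => intro init; simp [ih]
  simpa using this (f a) []

theorem computable_ite {c : α → Prop} [DecidablePred c] {f g : α → σ}
    (hc : Computable (fun a => decide (c a))) (hf : Computable f) (hg : Computable g) :
    Computable (fun a => if c a then f a else g a) :=
  (Computable.cond hc hf hg).of_eq fun a => by by_cases h : c a <;> simp [h]

theorem computable_fin_lam {n : ℕ} {f : α → Fin n → σ}
    (hf : ∀ i, Computable (fun a => f a i)) : Computable f :=
  (Primrec.vector_get'.to_comp.comp (Computable.vector_ofFn hf)).of_eq fun a => by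
    funext i; simp

end combinators

/-! ### The iterative evaluator -/

/-- Rational space-time points. -/
abbrev RPt : Type := ℚ × (Fin 3 → ℚ)

/-- State of the iteration: remaining directions, weighted sample points, precision. -/
abbrev FdState : Type := List (Fin 4) × List (ℚ × RPt) × ℕ

/-- The new state when the outermost remaining direction is `d`. -/
def fdStepCons (bound : List (Fin 4) → ℕ) (s : FdState) (d : Fin 4) : FdState :=
  (s.1.tail,
    (s.2.1.map (fun cp : ℚ × RPt =>
        (cp.1 * (fdN bound d s.1.tail s.2.2 : ℚ),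
          shiftPt d (1 / (fdN bound d s.1.tail s.2.2 : ℚ)) cp.2)))
      ++ (s.2.1.map (fun cp : ℚ × RPt =>
        (-(cp.1 * (fdN bound d s.1.tail s.2.2 : ℚ)), cp.2))),
    fdPrec bound d s.1.tail s.2.2)

/-- One step of the iteration: consume the outermost remaining direction. -/
def fdStep (bound : List (Fin 4) → ℕ) (s : FdState) : FdState :=
  Option.casesOn (motive := fun _ => FdState) s.1.head? s (fdStepCons bound s)

/-- Read-out: the weighted sum of the base approximations at the sample points. -/
def fdFinal (E₀ : (ℚ × (Fin 3 → ℚ)) × ℕ → (Fin 3 → ℚ)) (s : FdState) : Fin 3 → ℚ :=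
  fun j => (s.2.1.map (fun cp : ℚ × RPt => cp.1 * E₀ (cp.2, s.2.2) j)).sum

/-- `k` steps of the iteration. -/
def fdIter (bound : List (Fin 4) → ℕ) (k : ℕ) (s : FdState) : FdState :=
  Nat.rec (motive := fun _ => FdState) s (fun _ IH => fdStep bound IH) k

/-- The iterative evaluator. -/
def fdRun (E₀ : (ℚ × (Fin 3 → ℚ)) × ℕ → (Fin 3 → ℚ)) (bound : List (Fin 4) → ℕ)
    (x : List (Fin 4) × (ℚ × (Fin 3 → ℚ)) × ℕ) : Fin 3 → ℚ :=
  fdFinal E₀ (fdIter bound x.1.length (x.1, [((1 : ℚ), x.2.1)], x.2.2))

theorem fdIter_succ (bound : List (Fin 4) → ℕ) (k : ℕ) (s : FdState) :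
    fdIter bound (k + 1) s = fdIter bound k (fdStep bound s) := by
  induction k with
  | zero => rfl
  | succ k ih =>
    show fdStep bound (fdIter bound (k + 1) s) = fdStep bound (fdIter bound k (fdStep bound s))
    rw [ih]

theorem fdStep_nil (bound : List (Fin 4) → ℕ) (L : List (ℚ × RPt)) (n : ℕ) :
    fdStep bound ([], L, n) = ([], L, n) := rfl

theorem fdIter_nil (bound : List (Fin 4) → ℕ) (k : ℕ) (L : List (ℚ × RPt)) (n : ℕ) :
    fdIter bound k ([], L, n) = ([], L, n) := by
  induction k with
  | zero => rfl
  | succ k ih => rw [fdIter_succ, fdStep_nil, ih]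

theorem fdFinal_fdIter (E₀ : (ℚ × (Fin 3 → ℚ)) × ℕ → (Fin 3 → ℚ)) (bound : List (Fin 4) → ℕ)
    (j : Fin 3) : ∀ (ds : List (Fin 4)) (k : ℕ) (L : List (ℚ × RPt)) (n : ℕ), ds.length ≤ k →
      fdFinal E₀ (fdIter bound k (ds, L, n)) j
        = (L.map (fun cp : ℚ × RPt => cp.1 * fdEval E₀ bound ds cp.2 n j)).sum := by
  intro ds
  induction ds with
  | nil =>
    intro k L n _
    rw [fdIter_nil]
    rfl
  | cons d r ih =>
    intro k L n hk
    obtain ⟨k', rfl⟩ : ∃ k', k = k' + 1 := ⟨k - 1, by simp at hk; omega⟩
    have hk' : r.length ≤ k' := by simpa using hk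
    rw [fdIter_succ]
    have hstep : fdStep bound (d :: r, L, n) =
        (r, (L.map (fun cp : ℚ × RPt =>
            (cp.1 * (fdN bound d r n : ℚ), shiftPt d (1 / (fdN bound d r n : ℚ)) cp.2)))
          ++ (L.map (fun cp : ℚ × RPt => (-(cp.1 * (fdN bound d r n : ℚ)), cp.2))),
          fdPrec bound d r n) := rfl
    rw [hstep, ih k' _ _ hk', List.map_append, List.sum_append, List.map_map, List.map_map,
      ← List.sum_map_add]
    congr 1
    apply List.map_congr_left
    intro cp _
    simp only [Function.comp, fdEval]
    ring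

theorem fdRun_eq (E₀ : (ℚ × (Fin 3 → ℚ)) × ℕ → (Fin 3 → ℚ)) (bound : List (Fin 4) → ℕ)
    (ds : List (Fin 4)) (p : ℚ × (Fin 3 → ℚ)) (n : ℕ) :
    fdRun E₀ bound (ds, p, n) = fdEval E₀ bound ds p n := by
  funext j
  show fdFinal E₀ (fdIter bound ds.length (ds, [((1 : ℚ), p)], n)) j = _
  rw [fdFinal_fdIter E₀ bound j ds ds.length _ n le_rfl]
  simp

/-! ### Computability of the iterative evaluator -/

section comp

variable (hadd : Computable₂ (fun a b : ℚ => a + b)) (hneg : Computable (fun a : ℚ => -a))
  (hmul : Computable₂ (fun a b : ℚ => a * b)) (hdiv : Computable₂ (fun a b : ℚ => a / b))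
  (hnat : Computable (fun n : ℕ => (n : ℚ)))

include hadd in
theorem computable_rat_list_sum {α : Type*} [Primcodable α] {f : α → List ℚ}
    (hf : Computable f) : Computable (fun a => (f a).sum) := by
  have hh : Computable₂ (fun (_ : α) (p : ℚ × ℚ) => p.1 + p.2) :=
    hadd.comp (Computable.fst.comp Computable.snd) (Computable.snd.comp Computable.snd)
  have key := computable_list_foldl hf (Computable.const (0 : ℚ)) hh
  refine key.of_eq fun a => ?_
  rw [List.sum_eq_foldl]

include hadd in
theorem computable_shiftPt :
    Computable (fun x : (Fin 4 × ℚ) × RPt => shiftPt x.1.1 x.1.2 x.2) := by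
  have hd : Computable (fun x : (Fin 4 × ℚ) × RPt => x.1.1) :=
    Computable.fst.comp Computable.fst
  have hh : Computable (fun x : (Fin 4 × ℚ) × RPt => x.1.2) :=
    Computable.snd.comp Computable.fst
  have hp1 : Computable (fun x : (Fin 4 × ℚ) × RPt => x.2.1) :=
    Computable.fst.comp Computable.snd
  have hp2 : Computable (fun x : (Fin 4 × ℚ) × RPt => x.2.2) :=
    Computable.snd.comp Computable.snd
  have c1 : Computable (fun x : (Fin 4 × ℚ) × RPt => if x.1.1 = 0 then x.2.1 + x.1.2 else x.2.1) := by
    refine computable_ite ?_ (hadd.comp hp1 hh) hp1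
    exact ((Primrec.eq.comp (Primrec.fst.comp Primrec.fst) (Primrec.const (0 : Fin 4))).decide).to_comp
  have c2 : Computable (fun x : (Fin 4 × ℚ) × RPt =>
      (fun j : Fin 3 => if j.succ = x.1.1 then x.2.2 j + x.1.2 else x.2.2 j)) := by
    refine computable_fin_lam fun j => ?_
    have hpj : Computable (fun x : (Fin 4 × ℚ) × RPt => x.2.2 j) :=
      Computable.fin_app.comp hp2 (Computable.const j)
    refine computable_ite ?_ (hadd.comp hpj hh) hpj
    exact ((Primrec.eq.comp (Primrec.const (j.succ : Fin 4))
      (Primrec.fst.comp Primrec.fst)).decide).to_comp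
  exact c1.pair c2

theorem computable_fdN (bound : List (Fin 4) → ℕ) (hb : Computable bound) :
    Computable (fun x : (Fin 4 × List (Fin 4)) × ℕ => fdN bound x.1.1 x.1.2 x.2) := by
  have hmulN : Computable₂ (fun a b : ℕ => a * b) := Primrec.nat_mul.to_comp
  have haddN : Computable₂ (fun a b : ℕ => a + b) := Primrec.nat_add.to_comp
  have hd : Computable (fun x : (Fin 4 × List (Fin 4)) × ℕ => x.1.1) :=
    Computable.fst.comp Computable.fst
  have hds : Computable (fun x : (Fin 4 × List (Fin 4)) × ℕ => x.1.2) :=
    Computable.snd.comp Computable.fst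
  have hl : Computable (fun x : (Fin 4 × List (Fin 4)) × ℕ => x.1.1 :: x.1.1 :: x.1.2) :=
    Computable.list_cons.comp hd (Computable.list_cons.comp hd hds)
  exact hmulN.comp (hmulN.comp (Computable.const 2) (haddN.comp Computable.snd (Computable.const 1)))
    (haddN.comp (hb.comp hl) (Computable.const 1))

theorem computable_fdPrec (bound : List (Fin 4) → ℕ) (hb : Computable bound) :
    Computable (fun x : (Fin 4 × List (Fin 4)) × ℕ => fdPrec bound x.1.1 x.1.2 x.2) := by
  have hmulN : Computable₂ (fun a b : ℕ => a * b) := Primrec.nat_mul.to_comp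
  have haddN : Computable₂ (fun a b : ℕ => a + b) := Primrec.nat_add.to_comp
  exact hmulN.comp (hmulN.comp (Computable.const 4) (haddN.comp Computable.snd (Computable.const 1)))
    (computable_fdN bound hb)

include hadd hneg hmul hdiv hnat in
theorem computable_fdStep (bound : List (Fin 4) → ℕ) (hb : Computable bound) :
    Computable (fdStep bound) := by
  -- projections of `q : FdState × Fin 4`
  have htail : Computable (fun q : FdState × Fin 4 => q.1.1.tail) :=
    Primrec.list_tail.to_comp.comp (Computable.fst.comp Computable.fst)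
  have hL : Computable (fun q : FdState × Fin 4 => q.1.2.1) :=
    Computable.fst.comp (Computable.snd.comp Computable.fst)
  have hn : Computable (fun q : FdState × Fin 4 => q.1.2.2) :=
    Computable.snd.comp (Computable.snd.comp Computable.fst)
  have harg : Computable (fun q : FdState × Fin 4 => ((q.2, q.1.1.tail), q.1.2.2)) :=
    (Computable.snd.pair htail).pair hn
  have hN : Computable (fun q : FdState × Fin 4 => fdN bound q.2 q.1.1.tail q.1.2.2) := by
    have h0 := (computable_fdN bound hb).comp harg
    exact h0
  have hNq : Computable (fun q : FdState × Fin 4 => (fdN bound q.2 q.1.1.tail q.1.2.2 : ℚ)) :=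
    hnat.comp hN
  have hP : Computable (fun q : FdState × Fin 4 => fdPrec bound q.2 q.1.1.tail q.1.2.2) := by
    have h0 := (computable_fdPrec bound hb).comp harg
    exact h0
  have hinv : Computable (fun q : FdState × Fin 4 =>
      1 / (fdN bound q.2 q.1.1.tail q.1.2.2 : ℚ)) :=
    hdiv.comp (Computable.const 1) hNq
  -- the two maps
  have hm1 : Computable (fun q : FdState × Fin 4 => q.1.2.1.map (fun cp : ℚ × RPt =>
      (cp.1 * (fdN bound q.2 q.1.1.tail q.1.2.2 : ℚ),
        shiftPt q.2 (1 / (fdN bound q.2 q.1.1.tail q.1.2.2 : ℚ)) cp.2))) := by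
    refine computable_list_map hL ?_
    have e1 : Computable (fun r : (FdState × Fin 4) × (ℚ × RPt) =>
        r.2.1 * (fdN bound r.1.2 r.1.1.1.tail r.1.1.2.2 : ℚ)) :=
      hmul.comp (Computable.fst.comp Computable.snd) (hNq.comp Computable.fst)
    have e2 : Computable (fun r : (FdState × Fin 4) × (ℚ × RPt) =>
        shiftPt r.1.2 (1 / (fdN bound r.1.2 r.1.1.1.tail r.1.1.2.2 : ℚ)) r.2.2) := by
      have harg2 : Computable (fun r : (FdState × Fin 4) × (ℚ × RPt) =>
          ((r.1.2, 1 / (fdN bound r.1.2 r.1.1.1.tail r.1.1.2.2 : ℚ)), r.2.2)) :=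
        ((Computable.snd.comp Computable.fst).pair (hinv.comp Computable.fst)).pair
          (Computable.snd.comp Computable.snd)
      have h0 := (computable_shiftPt hadd).comp harg2
      exact h0
    exact e1.pair e2
  have hm2 : Computable (fun q : FdState × Fin 4 => q.1.2.1.map (fun cp : ℚ × RPt =>
      (-(cp.1 * (fdN bound q.2 q.1.1.tail q.1.2.2 : ℚ)), cp.2))) := by
    refine computable_list_map hL ?_
    have e1 : Computable (fun r : (FdState × Fin 4) × (ℚ × RPt) =>
        -(r.2.1 * (fdN bound r.1.2 r.1.1.1.tail r.1.1.2.2 : ℚ))) :=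
      hneg.comp (hmul.comp (Computable.fst.comp Computable.snd) (hNq.comp Computable.fst))
    exact e1.pair (Computable.snd.comp Computable.snd)
  have hg : Computable (fun q : FdState × Fin 4 =>
      ((q.1.1.tail,
        (q.1.2.1.map (fun cp : ℚ × RPt =>
            (cp.1 * (fdN bound q.2 q.1.1.tail q.1.2.2 : ℚ),
              shiftPt q.2 (1 / (fdN bound q.2 q.1.1.tail q.1.2.2 : ℚ)) cp.2)))
          ++ (q.1.2.1.map (fun cp : ℚ × RPt =>
            (-(cp.1 * (fdN bound q.2 q.1.1.tail q.1.2.2 : ℚ)), cp.2))),
        fdPrec bound q.2 q.1.1.tail q.1.2.2) : FdState)) :=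
    htail.pair ((Computable.list_append.comp hm1 hm2).pair hP)
  have hcons : Computable₂ (fdStepCons bound) := hg
  have hhead : Computable (fun s : FdState => s.1.head?) :=
    Primrec.list_head?.to_comp.comp Computable.fst
  have hid : Computable (fun s : FdState => s) := Computable.id
  exact Computable.option_casesOn hhead hid hcons

include hadd hmul in
theorem computable_fdFinal (E₀ : (ℚ × (Fin 3 → ℚ)) × ℕ → (Fin 3 → ℚ)) (hE₀ : Computable E₀) :
    Computable (fdFinal E₀) := by
  refine computable_fin_lam fun j => ?_
  refine computable_rat_list_sum hadd ?_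
  refine computable_list_map (Computable.fst.comp Computable.snd) ?_
  have e : Computable (fun r : FdState × (ℚ × RPt) => E₀ (r.2.2, r.1.2.2) j) :=
    Computable.fin_app.comp
      (hE₀.comp ((Computable.snd.comp Computable.snd).pair
        (Computable.snd.comp (Computable.snd.comp Computable.fst))))
      (Computable.const j)
  exact hmul.comp (Computable.fst.comp Computable.snd) e

include hadd hneg hmul hdiv hnat in
theorem computable_fdRun (E₀ : (ℚ × (Fin 3 → ℚ)) × ℕ → (Fin 3 → ℚ)) (hE₀ : Computable E₀)
    (bound : List (Fin 4) → ℕ) (hb : Computable bound) : Computable (fdRun E₀ bound) := by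
  have hstep := computable_fdStep hadd hneg hmul hdiv hnat bound hb
  have hinit : Computable (fun x : List (Fin 4) × (ℚ × (Fin 3 → ℚ)) × ℕ =>
      ((x.1, [((1 : ℚ), x.2.1)], x.2.2) : FdState)) :=
    Computable.fst.pair
      ((Computable.list_cons.comp
          ((Computable.const (1 : ℚ)).pair (Computable.fst.comp Computable.snd))
          (Computable.const [])).pair
        (Computable.snd.comp Computable.snd))
  have hlen : Computable (fun x : List (Fin 4) × (ℚ × (Fin 3 → ℚ)) × ℕ => x.1.length) :=
    Computable.list_length.comp Computable.fst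
  have hh : Computable₂ (fun (_ : List (Fin 4) × (ℚ × (Fin 3 → ℚ)) × ℕ) (p : ℕ × FdState) =>
      fdStep bound p.2) :=
    hstep.comp (Computable.snd.comp Computable.snd)
  have hiter := Computable.nat_rec hlen hinit hh
  exact (computable_fdFinal hadd hmul E₀ hE₀).comp hiter

include hadd hneg hmul hdiv hnat in
/-- Work package A3, with the computability of rational arithmetic as hypotheses. -/
theorem effective_of_values_bounds_of_rat (F : Field) (hF : ContDiff ℝ ∞ F)
    (E₀ : (ℚ × (Fin 3 → ℚ)) × ℕ → (Fin 3 → ℚ)) (hE₀ : Computable E₀)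
    (hval : ∀ (t : ℚ) (q : Fin 3 → ℚ) (n : ℕ) (j : Fin 3),
      |F ((t : ℝ), ratPoint q) j - (E₀ ((t, q), n) j : ℝ)| ≤ 1 / ((n : ℝ) + 1))
    (bound : List (Fin 4) → ℕ) (hb : Computable bound)
    (hbound : ∀ (ds : List (Fin 4)) (p : ℝ × (Fin 3 → ℝ)) (j : Fin 3),
      |mixedDeriv ds F p j| ≤ (bound ds : ℝ)) :
    Effective F := by
  refine ⟨fdRun E₀ bound, bound, computable_fdRun hadd hneg hmul hdiv hnat E₀ hE₀ bound hb, hb,
    ?_, hbound⟩
  intro ds t q n j
  rw [fdRun_eq]
  exact fdEval_spec F hF E₀ hval bound hbound ds (t, q) n j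

end comp

end Crest.Agent.Helper57
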