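/-
S0170 team project, work package A3 (helper57): effectiveness from values and bounds
(finite differences).  Final statement, identical to `Spec.effective_of_values_bounds`.
Analysis: `FinDiff.lean`; computability of the evaluator: `FinDiffComp.lean`;
rational arithmetic: package A4 (`Helper82/RatComp.lean`).
-/
import Crest.Agent.Helper21.BoxFlow.Defs
import Crest.Agent.Helper57.BoxFlow.FinDiffComp
import Crest.Agent.Helper82.RatComp

set_option autoImplicit false
open scoped ContDiff
open Crest.AnalysisR.BoxFlow Crest.Agent.Helper21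

namespace Crest.Agent.Helper57

theorem effective_of_values_bounds (F : Field) (hF : ContDiff ℝ ∞ F)
    (E₀ : (ℚ × (Fin 3 → ℚ)) × ℕ → (Fin 3 → ℚ)) (hE₀ : Computable E₀)
    (hval : ∀ (t : ℚ) (q : Fin 3 → ℚ) (n : ℕ) (j : Fin 3),
      |F ((t : ℝ), ratPoint q) j - (E₀ ((t, q), n) j : ℝ)| ≤ 1 / ((n : ℝ) + 1))
    (bound : List (Fin 4) → ℕ) (hb : Computable bound)
    (hbound : ∀ (ds : List (Fin 4)) (p : ℝ × (Fin 3 → ℝ)) (j : Fin 3),
      |mixedDeriv ds F p j| ≤ (bound ds : ℝ)) :
    Effective F :=
  effective_of_values_bounds_of_rat Crest.Agent.Helper82.rat_add Crest.Agent.Helper82.rat_neg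
    Crest.Agent.Helper82.rat_mul Crest.Agent.Helper82.rat_div Crest.Agent.Helper82.rat_natCast
    F hF E₀ hE₀ hval bound hb hbound

end Crest.Agent.Helper57
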